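import Vale.Agent.P167.H592.T.OneR
import Vale.Agent.P167.H167.Q.JunMix

/-!
# P167, general `q`, Q-EQUI: the enlargement of a polygon in small boxes

In a box of side less than `n` the squares outside of the enlargement are connected (`oneC_const`);
near an inner point of a side the enlargement is a half-plane (`enl_side`).
-/

namespace Vale.Agent.P167.Enl

open Finset
open Vale.Agent.P167.E6 (IsPolygon Encloses dir face)
open Vale.Agent.P167.H825 (enl pdir)
open Vale.Agent.P167.H166 (bxx mem_bxx)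
open Vale.Agent.P167.FK (Bq)
open Vale.Agent.P167.H562.QM (OneP OneC QC mem_image_sh)

/-! ### squares joined by two rectangles -/

/-- The rectangle of two squares. -/
def rct (v w z : ℤ × ℤ) : Prop :=
  min v.1 w.1 ≤ z.1 ∧ z.1 ≤ max v.1 w.1 ∧ min v.2 w.2 ≤ z.2 ∧ z.2 ≤ max v.2 w.2

/-- The squares are joined by two rectangles in `F`. -/
def RC (F : Set (ℤ × ℤ)) (v w : ℤ × ℤ) : Prop :=
  ∃ u, (∀ z, rct v u z → z ∈ F) ∧ ∀ z, rct u w z → z ∈ F

theorem QC_rct {F : Set (ℤ × ℤ)} {v w : ℤ × ℤ} (h : ∀ z, rct v w z → z ∈ F) : QC F v w := by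
  refine QC.rect (x0 := min v.1 w.1) (x1 := max v.1 w.1 + 1) (y0 := min v.2 w.2)
    (y1 := max v.2 w.2 + 1) (fun z h1 h2 h3 h4 => h z ⟨h1, by omega, h3, by omega⟩) ?_ ?_ <;> omega

theorem RC.qc {F : Set (ℤ × ℤ)} {v w : ℤ × ℤ} (h : RC F v w) : QC F v w := by
  obtain ⟨u, h1, h2⟩ := h
  exact (QC_rct h1).trans (QC_rct h2)

theorem RC.shift {F : Set (ℤ × ℤ)} {v w : ℤ × ℤ} (h : RC F (FKA.shi v) (FKA.shi w)) :
    RC {z | FKA.shi z ∈ F} v w := by
  obtain ⟨u, h1, h2⟩ := h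
  refine ⟨FKA.sh u, fun z hz => h1 _ ?_, fun z hz => h2 _ ?_⟩
  · unfold rct FKA.sh at hz
    unfold rct FKA.shi
    simp only at hz ⊢
    omega
  · unfold rct FKA.sh at hz
    unfold rct FKA.shi
    simp only at hz ⊢
    omega

variable {D : Finset (ℤ × ℤ)} {η : Cfg} {x : ℤ × ℤ} {R : ℤ}

/-- Boxes in which all squares outside of the domain have one colour and are joined. -/
theorem oneC_of_RC {b : Bool} (h : ∀ v w, v ∈ bxx x R → v ∉ D → w ∈ bxx x R → w ∉ D →
    RC {z | z ∈ bxx x R ∧ z ∉ D} v w) (hη : ∀ v ∈ bxx x R, v ∉ D → η v = b) : OneC x R D η := by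
  cases b with
  | true =>
    constructor
    · intro v hv hvD _ w hw hwD _
      have e : {z | z ∈ bxx x R ∧ z ∉ D ∧ η z = true} = {z | z ∈ bxx x R ∧ z ∉ D} := by
        ext z
        simp only [Set.mem_ofPred_eq]
        constructor
        · rintro ⟨h1, h2, -⟩
          exact ⟨h1, h2⟩
        · rintro ⟨h1, h2⟩
          exact ⟨h1, h2, hη z h1 h2⟩
      rw [e]
      exact (h v w hv hvD hw hwD).qc
    · intro v hv hvD hv1
      rw [FKA.mem_bxx_sh] at hv
      rw [mem_image_sh] at hvD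
      have h1 : (!η (FKA.shi v)) = true := hv1
      rw [hη _ hv hvD] at h1
      exact absurd h1 (by simp)
  | false =>
    constructor
    · intro v hv hvD hv1
      rw [hη v hv hvD] at hv1
      exact absurd hv1 (by simp)
    · intro v hv hvD _ w hw hwD _
      rw [FKA.mem_bxx_sh] at hv hw
      rw [mem_image_sh] at hvD hwD
      have e : {z | z ∈ bxx (FKA.sh x) R ∧ z ∉ D.image (fun v => (v.1 + 1, v.2)) ∧
          FK.du η z = true} = {z | FKA.shi z ∈ ({z | z ∈ bxx x R ∧ z ∉ D} : Set (ℤ × ℤ))} := by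
        ext z
        simp only [Set.mem_ofPred_eq]
        rw [FKA.mem_bxx_sh, mem_image_sh]
        constructor
        · rintro ⟨h1, h2, -⟩
          exact ⟨h1, h2⟩
        · rintro ⟨h1, h2⟩
          refine ⟨h1, h2, ?_⟩
          show (!η (FKA.shi z)) = true
          rw [hη _ h1 h2]
          rfl
      rw [e]
      exact (h _ _ hv hvD hw hwD).shift.qc

/-! ### the enlargement -/

variable {l : ℕ} {p : ZMod l → ℤ × ℤ} {n : ℕ} {S₀ : Finset (ℤ × ℤ)}

/-- No corner of the polygon is visited twice. -/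
theorem no_checker (hp : IsPolygon p) (hD : Encloses p S₀) (V : ℤ × ℤ) (r : Fin 4)
    (h0 : face V r ∈ S₀) (h1 : face V (r - 1) ∉ S₀) (h2 : face V (r + 2) ∈ S₀)
    (h3 : face V (r + 2 - 1) ∉ S₀) : False := by
  obtain ⟨i, hi, hi'⟩ := (hD V r).2 ⟨h0, h1⟩
  obtain ⟨j, hj, hj'⟩ := (hD V (r + 2)).2 ⟨h2, h3⟩
  have hij : i = j := hp.2.1 (hi.trans hj.symm)
  rw [hij, hj'] at hi'
  have := add_left_cancel hi'
  rcases fin4_cases r with rfl | rfl | rfl | rfl
  · exact absurd this (by decide)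
  · exact absurd this (by decide)
  · exact absurd this (by decide)
  · exact absurd this (by decide)

/-- Four cells around a vertex: two opposite cells outside of the polygon. -/
theorem four_cells (hp : IsPolygon p) (hD : Encloses p S₀) {a b a' b' : ℤ} (ha : a' = a + 1 ∨ a = a' + 1)
    (hb : b' = b + 1 ∨ b = b' + 1) (h1 : (a, b) ∉ S₀) (h2 : (a', b') ∉ S₀) :
    (a, b') ∉ S₀ ∨ (a', b) ∉ S₀ := by
  by_contra hcon
  push Not at hcon
  obtain ⟨h3, h4⟩ := hcon
  have key : ∀ V : ℤ × ℤ, face V 0 = (V.1, V.2) ∧ face V 1 = (V.1 - 1, V.2) ∧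
      face V 2 = (V.1 - 1, V.2 - 1) ∧ face V 3 = (V.1, V.2 - 1) := by
    intro V
    refine ⟨?_, ?_, ?_, ?_⟩ <;> simp [face, Prod.ext_iff] <;> omega
  have f1 : (0 : Fin 4) + 2 = 2 := rfl
  have f2 : (1 : Fin 4) + 2 = 3 := rfl
  have g0 : (0 : Fin 4) - 1 = 3 := rfl
  have g1 : (1 : Fin 4) - 1 = 0 := rfl
  have g2 : (2 : Fin 4) - 1 = 1 := rfl
  have g3 : (3 : Fin 4) - 1 = 2 := rfl
  rcases ha with rfl | rfl <;> rcases hb with rfl | rfl
  · -- V = (a + 1, b + 1): face 2 = (a, b), face 0 = (a + 1, b + 1) outside, face 1, face 3 inside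
    obtain ⟨k0, k1, k2, k3⟩ := key (a + 1, b + 1)
    simp only [add_sub_cancel_right] at k0 k1 k2 k3
    refine no_checker hp hD (a + 1, b + 1) 1 ?_ ?_ ?_ ?_
    · rw [k1]; exact h3
    · rw [g1, k0]; exact h2
    · rw [f2, k3]; exact h4
    · rw [f2, g3, k2]; exact h1
  · -- b = b' + 1
    obtain ⟨k0, k1, k2, k3⟩ := key (a + 1, b' + 1)
    simp only [add_sub_cancel_right] at k0 k1 k2 k3
    refine no_checker hp hD (a + 1, b' + 1) 0 ?_ ?_ ?_ ?_
    · rw [k0]; exact h4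
    · rw [g0, k3]; exact h2
    · rw [f1, k2]; exact h3
    · rw [f1, g2, k1]; exact h1
  · obtain ⟨k0, k1, k2, k3⟩ := key (a' + 1, b + 1)
    simp only [add_sub_cancel_right] at k0 k1 k2 k3
    refine no_checker hp hD (a' + 1, b + 1) 0 ?_ ?_ ?_ ?_
    · rw [k0]; exact h3
    · rw [g0, k3]; exact h1
    · rw [f1, k2]; exact h4
    · rw [f1, g2, k1]; exact h2
  · obtain ⟨k0, k1, k2, k3⟩ := key (a' + 1, b' + 1)
    simp only [add_sub_cancel_right] at k0 k1 k2 k3
    refine no_checker hp hD (a' + 1, b' + 1) 1 ?_ ?_ ?_ ?_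
    · rw [k1]; exact h4
    · rw [g1, k0]; exact h1
    · rw [f2, k3]; exact h3
    · rw [f2, g3, k2]; exact h2

/-- Quotients of near numbers. -/
theorem div_near {n a b : ℤ} (hn : 0 < n) (h : a - b < n) (h' : b - a < n) :
    a / n = b / n ∨ a / n = b / n + 1 ∨ b / n = a / n + 1 := by
  have h1 := Int.mul_ediv_add_emod a n
  have h2 := Int.mul_ediv_add_emod b n
  have h3 := Int.emod_nonneg a hn.ne'
  have h4 := Int.emod_nonneg b hn.ne'
  have h5 := Int.emod_lt_of_pos a hn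
  have h6 := Int.emod_lt_of_pos b hn
  have h7 : a / n - b / n < 2 := by
    by_contra hcon
    push Not at hcon
    nlinarith
  have h8 : b / n - a / n < 2 := by
    by_contra hcon
    push Not at hcon
    nlinarith
  omega

/-- Numbers between have quotients between. -/
theorem div_btw {n a b z : ℤ} (hn : 0 < n) (h1 : min a b ≤ z) (h2 : z ≤ max a b) :
    min (a / n) (b / n) ≤ z / n ∧ z / n ≤ max (a / n) (b / n) := by
  have m1 : ∀ {u v : ℤ}, u ≤ v → u / n ≤ v / n := fun h => Int.ediv_le_ediv hn h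
  rcases le_total a b with h | h
  · rw [min_eq_left h] at h1
    rw [max_eq_right h] at h2
    rw [min_eq_left (m1 h), max_eq_right (m1 h)]
    exact ⟨m1 h1, m1 h2⟩
  · rw [min_eq_right h] at h1
    rw [max_eq_left h] at h2
    rw [min_eq_right (m1 h), max_eq_left (m1 h)]
    exact ⟨m1 h1, m1 h2⟩

/-- **The squares of a small box outside of the enlargement are joined.** -/
theorem out_RC (hp : IsPolygon p) (hD : Encloses p S₀) (hR : 2 * R + 1 ≤ n) (hn : 0 < n)
    {v w : ℤ × ℤ} (hv : v ∈ bxx x R) (hvD : v ∉ enl S₀ n) (hw : w ∈ bxx x R)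
    (hwD : w ∉ enl S₀ n) : RC {z | z ∈ bxx x R ∧ z ∉ enl S₀ n} v w := by
  have hn' : (0 : ℤ) < n := by exact_mod_cast hn
  rw [mem_enl_div hn] at hvD hwD
  have hbx : ∀ {z : ℤ × ℤ}, z ∈ bxx x R ↔ (x.1 - R ≤ z.1 ∧ z.1 ≤ x.1 + R) ∧ x.2 - R ≤ z.2 ∧
      z.2 ≤ x.2 + R := by
    intro z
    rw [bxx, mem_product, mem_Icc, mem_Icc]
  rw [hbx] at hv hw
  have d1 := div_near hn' (a := v.1) (b := w.1) (by omega) (by omega)
  have d2 := div_near hn' (a := v.2) (b := w.2) (by omega) (by omega)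
  -- rectangles in one line of cells
  have line : ∀ {v w : ℤ × ℤ}, ((x.1 - R ≤ v.1 ∧ v.1 ≤ x.1 + R) ∧ x.2 - R ≤ v.2 ∧
      v.2 ≤ x.2 + R) → ((x.1 - R ≤ w.1 ∧ w.1 ≤ x.1 + R) ∧ x.2 - R ≤ w.2 ∧ w.2 ≤ x.2 + R) →
      (v.1 / n, v.2 / n) ∉ S₀ → (w.1 / n, w.2 / n) ∉ S₀ →
      (v.1 / n = w.1 / n ∨ v.2 / n = w.2 / n) → ∀ z, rct v w z →
        z ∈ ({z | z ∈ bxx x R ∧ z ∉ enl S₀ n} : Set (ℤ × ℤ)) := by
    intro v w hv hw h1 h2 h3 z hz
    obtain ⟨z1, z2, z3, z4⟩ := hz
    have e1 := div_btw hn' z1 z2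
    have e2 := div_btw hn' z3 z4
    have f1 := div_near hn' (a := v.1) (b := w.1) (by omega) (by omega)
    have f2 := div_near hn' (a := v.2) (b := w.2) (by omega) (by omega)
    rw [Set.mem_ofPred_eq, hbx, mem_enl_div hn]
    refine ⟨by omega, ?_⟩
    rcases h3 with h3 | h3
    · have g1 : z.1 / n = v.1 / n := by omega
      have g2 : z.2 / n = v.2 / n ∨ z.2 / n = w.2 / n := by omega
      rcases g2 with g2 | g2
      · rw [g1, g2]; exact h1
      · rw [g1, g2, h3]; exact h2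
    · have g1 : z.2 / n = v.2 / n := by omega
      have g2 : z.1 / n = v.1 / n ∨ z.1 / n = w.1 / n := by omega
      rcases g2 with g2 | g2
      · rw [g1, g2]; exact h1
      · rw [g1, g2, h3]; exact h2
  by_cases hl : v.1 / (n : ℤ) = w.1 / n ∨ v.2 / (n : ℤ) = w.2 / n
  · exact ⟨v, line hv hv hvD hvD (Or.inl rfl), line hv hw hvD hwD hl⟩
  · push Not at hl
    rcases four_cells hp hD (a := v.1 / n) (b := v.2 / n) (a' := w.1 / n) (b' := w.2 / n)
      (by omega) (by omega) hvD hwD with h | h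
    · exact ⟨(v.1, w.2), line hv (w := (v.1, w.2)) (by simp only; omega) hvD h (Or.inl rfl),
        line (v := (v.1, w.2)) (by simp only; omega) hw h hwD (Or.inr rfl)⟩
    · exact ⟨(w.1, v.2), line hv (w := (w.1, v.2)) (by simp only; omega) hvD h (Or.inr rfl),
        line (v := (w.1, v.2)) (by simp only; omega) hw h hwD (Or.inl rfl)⟩

/-- **Small boxes in which all squares outside of the enlargement have one colour.** -/
theorem oneC_const (hp : IsPolygon p) (hD : Encloses p S₀) (hR : 2 * R + 1 ≤ n) (hn : 0 < n)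
    (b : Bool) (hη : ∀ v ∈ bxx x R, v ∉ enl S₀ n → η v = b) : OneC x R (enl S₀ n) η :=
  oneC_of_RC (fun _ _ h1 h2 h3 h4 => out_RC hp hD hR hn h1 h2 h3 h4) hη

/-- **Near an inner point of a side the enlargement is a half-plane.** -/
theorem enl_side (hp : IsPolygon p) (hD : Encloses p S₀) (hn : 0 < n) {i : ℕ}
    {t ρ : ℤ} (h1 : ρ ≤ t) (h2 : ρ ≤ n - t) {v : ℤ × ℤ} (hv : v ∈ Bq (vp p n i t) ρ) :
    v ∈ enl S₀ n ↔ H167.Q.hpl (pdir p i) (vp p n i t) v := by
  have hn' : (0 : ℤ) < n := by exact_mod_cast hn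
  obtain ⟨k1, k2⟩ := (hD (p i) (pdir p i)).1 ⟨i, rfl, pdir_step hp i⟩
  rw [mem_enl_div hn]
  unfold Bq at hv
  rw [mem_product, mem_Ico, mem_Ico] at hv
  have hdiv : ∀ {a b : ℤ}, n * b ≤ a → a < n * b + n → a / n = b := by
    intro a b h1 h2
    have e := Int.mul_ediv_add_emod a n
    have e1 := Int.emod_nonneg a hn'.ne'
    have e2 := Int.emod_lt_of_pos a hn'
    have e3 : a / n - b < 1 := by
      by_contra hcon
      push Not at hcon
      nlinarith
    have e4 : b - a / n < 1 := by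
      by_contra hcon
      push Not at hcon
      nlinarith
    omega
  unfold vp at hv ⊢
  obtain ⟨v0, v1, v2, v3⟩ := vz_eq ((n : ℤ) • p (i : ZMod l)) t
  have eP : ((n : ℤ) • p (i : ZMod l)).1 = n * (p (i : ZMod l)).1 ∧
      ((n : ℤ) • p (i : ZMod l)).2 = n * (p (i : ZMod l)).2 := ⟨rfl, rfl⟩
  rw [eP.1, eP.2] at v0 v1 v2 v3
  generalize p (i : ZMod l) = P at *
  obtain ⟨x, y⟩ := P
  obtain ⟨f0, f1, f2, f3⟩ : face (x, y) 0 = (x, y) ∧ face (x, y) 1 = (x - 1, y) ∧
      face (x, y) 2 = (x - 1, y - 1) ∧ face (x, y) 3 = (x, y - 1) := by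
    refine ⟨?_, ?_, ?_, ?_⟩ <;> simp [face] <;> omega
  simp only at v0 v1 v2 v3
  rcases fin4_cases (pdir p i) with hr | hr | hr | hr <;> rw [hr] at hv k1 k2 ⊢
  · rw [v0] at hv ⊢
    rw [m01, f3] at k2
    rw [f0] at k1
    simp only at hv
    have e1 : v.1 / n = x := hdiv (by omega) (by omega)
    show _ ↔ n * y ≤ v.2
    by_cases h : n * y ≤ v.2
    · rw [e1, hdiv h (by omega)]
      exact iff_of_true k1 h
    · rw [e1, hdiv (b := y - 1) (by rw [mul_sub, mul_one]; omega) (by rw [mul_sub, mul_one]; omega)]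
      exact iff_of_false k2 h
  · rw [v1] at hv ⊢
    rw [m11, f0] at k2
    rw [f1] at k1
    simp only at hv
    have e1 : v.2 / n = y := hdiv (by omega) (by omega)
    show _ ↔ v.1 < n * x
    by_cases h : v.1 < n * x
    · rw [e1, hdiv (b := x - 1) (by rw [mul_sub, mul_one]; omega) (by rw [mul_sub, mul_one]; omega)]
      exact iff_of_true k1 h
    · rw [e1, hdiv (b := x) (by omega) (by omega)]
      exact iff_of_false k2 h
  · rw [v2] at hv ⊢
    rw [m21, f1] at k2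
    rw [f2] at k1
    simp only at hv
    have e1 : v.1 / n = x - 1 := hdiv (by rw [mul_sub, mul_one]; omega)
      (by rw [mul_sub, mul_one]; omega)
    show _ ↔ v.2 < n * y
    by_cases h : v.2 < n * y
    · rw [e1, hdiv (b := y - 1) (by rw [mul_sub, mul_one]; omega) (by rw [mul_sub, mul_one]; omega)]
      exact iff_of_true k1 h
    · rw [e1, hdiv (b := y) (by omega) (by omega)]
      exact iff_of_false k2 h
  · rw [v3] at hv ⊢
    rw [m31, f2] at k2
    rw [f3] at k1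
    simp only at hv
    have e1 : v.2 / n = y - 1 := hdiv (by rw [mul_sub, mul_one]; omega)
      (by rw [mul_sub, mul_one]; omega)
    show _ ↔ n * x ≤ v.1
    by_cases h : n * x ≤ v.1
    · rw [e1, hdiv h (by omega)]
      exact iff_of_true k1 h
    · rw [e1, hdiv (b := x - 1) (by rw [mul_sub, mul_one]; omega) (by rw [mul_sub, mul_one]; omega)]
      exact iff_of_false k2 h

/-- The same for the points of the enlarged polygon. -/
theorem enl_side_PN (hp : IsPolygon p) (hD : Encloses p S₀) (hn : 0 < n) {k : ℕ} {ρ : ℤ}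
    (h1 : ρ ≤ (k % n : ℕ)) (h2 : ρ ≤ n - (k % n : ℕ)) {v : ℤ × ℤ} (hv : v ∈ Bq (PN p n k) ρ) :
    v ∈ enl S₀ n ↔ H167.Q.hpl (pdir p (k / n)) (PN p n k) v :=
  enl_side hp hD hn (i := k / n) (t := (k % n : ℕ)) h1 h2 hv

end Vale.Agent.P167.Enl
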