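import Vale.Agent.P167.H825.Q.BdQ

/-!
# P167, general `q`: Dobrushin boundary conditions from the squares at the boundary sites

`dob_of_local`: an outside configuration for which the squares around the boundary sites strictly
between `k` and `N` are open, and for which every site of `D` at an open square outside of `D` is a
boundary site between `k` and `N`, satisfies `Dob`.
-/

namespace Vale.Agent.P167.Enl

open Finset Relation
open Vale.Agent.P145.FB (PStep)
open Vale.Agent.P167.BR (sites)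
open Vale.Agent.P167.FK (Good)
open Vale.Agent.P167.E6 (IsPolygon Encloses dir face)
open Vale.Agent.P167.H718 (Dob Chordless etaW opW mem_opW OutC dob_etaW)

/-- The square across which a step goes is at the start of the step. -/
theorem step_face_ex {s t : ℤ × ℤ} (h1 : t.1 = s.1 + 1 ∨ t.1 = s.1 - 1)
    (h2 : t.2 = s.2 + 1 ∨ t.2 = s.2 - 1) : ∃ r, face s r = (min s.1 t.1, min s.2 t.2) := by
  obtain ⟨c, d⟩ := s
  obtain ⟨c', d'⟩ := t
  simp only at h1 h2
  have f0 : face (c, d) 0 = (c + 0, d + 0) := rfl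
  have f1 : face (c, d) 1 = (c + -1, d + 0) := rfl
  have f2 : face (c, d) 2 = (c + -1, d + -1) := rfl
  have f3 : face (c, d) 3 = (c + 0, d + -1) := rfl
  rcases h1 with h1 | h1 <;> rcases h2 with h2 | h2
  · exact ⟨0, by rw [f0]; simp only [Prod.mk.injEq]; omega⟩
  · exact ⟨3, by rw [f3]; simp only [Prod.mk.injEq]; omega⟩
  · exact ⟨1, by rw [f1]; simp only [Prod.mk.injEq]; omega⟩
  · exact ⟨2, by rw [f2]; simp only [Prod.mk.injEq]; omega⟩

/-- **Dobrushin boundary conditions from local conditions.** -/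
theorem dob_of_local {N k : ℕ} {q : ZMod N → ℤ × ℤ} {D : Finset (ℤ × ℤ)} {η : Cfg}
    (hq : IsPolygon q) (hD : Encloses q D) (hc : Chordless q) (hg : Good η)
    (hop : ∀ j : ℕ, k < j → j < N → ∀ r, face (q j) r ∉ D → η (face (q j) r) = true)
    (hse : ∀ s ∈ sites D, ∀ r, face s r ∉ D → η (face s r) = true →
      ∃ i : ℕ, k ≤ i ∧ i ≤ N ∧ q i = s) : Dob η D q k := by
  have hW := dob_etaW (k := k) hq hD hc
  have hle : ∀ v, etaW D q k v = true → η v = true := by
    intro v hv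
    unfold etaW at hv
    rw [decide_eq_true_iff, mem_opW] at hv
    obtain ⟨⟨j, h1, h2, -, r, rfl⟩, h3⟩ := hv
    exact hop j h1 h2 r h3
  refine ⟨hg, fun i j h1 h2 h3 h4 h5 h6 => ?_, ?_⟩
  · have h7 := hW.join i j h1 h2 h3 h4 h5 h6
    unfold OutC at h7 ⊢
    exact ReflTransGen.mono (fun s t hst => ⟨hst.1, hst.2.1, hle _ hst.2.2.1, hst.2.2.2⟩) _ _ h7
  · have hend : ∀ s t : ℤ × ℤ, s ∈ sites D → PStep (P167.op η ∩ (↑D : Set (ℤ × ℤ))ᶜ) s t →
        ∃ i : ℕ, k ≤ i ∧ i ≤ N ∧ q i = s := by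
      intro s t hs hst
      obtain ⟨h1, h2, h3, h4⟩ := hst
      have h5 : η (min s.1 t.1, min s.2 t.2) = true := h3
      have h6 : (min s.1 t.1, min s.2 t.2) ∉ D := h4
      obtain ⟨r, hr⟩ := step_face_ex h1 h2
      rw [← hr] at h5 h6
      exact hse s hs r h6 h5
    intro s hs t ht hev hst hne
    have h1 : ∃ x, PStep (P167.op η ∩ (↑D : Set (ℤ × ℤ))ᶜ) s x := by
      rcases ReflTransGen.cases_head hst with h | ⟨x, hx, -⟩
      · exact absurd h hne
      · exact ⟨x, hx⟩
    have h2 : ∃ x, PStep (P167.op η ∩ (↑D : Set (ℤ × ℤ))ᶜ) t x := by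
      rcases ReflTransGen.cases_tail hst with h | ⟨x, -, hx⟩
      · exact absurd h.symm hne
      · exact ⟨x, hx.symm⟩
    obtain ⟨x, hx⟩ := h1
    obtain ⟨y, hy⟩ := h2
    obtain ⟨i, hi1, hi2, hi3⟩ := hend s x hs hx
    obtain ⟨j, hj1, hj2, hj3⟩ := hend t y ht hy
    exact ⟨i, j, hi1, hi2, hj1, hj2, hi3, hj3⟩

end Vale.Agent.P167.Enl
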