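import Vale.Agent.P167.H592.R.Out

/-!
# P167, general `q`, Q-EQUI: flat boxes with one junction

In a box in which the domain is a half-plane and the squares outside have two colours separated at one
point, the open squares and the closed squares outside are joined (`oneC_FlR`).
-/

namespace Vale.Agent.P167.Enl

open Finset
open Vale.Agent.P167.H166 (bxx mem_bxx)
open Vale.Agent.P167.FK (Bq)
open Vale.Agent.P167.H167.Q (hpl hcl lsd FlR)
open Vale.Agent.P167.H562.QM (OneP OneC QC mem_image_sh)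

theorem IsRect.lt1 {S : Set (ℤ × ℤ)} (h : IsRect S) (c : ℤ) : IsRect {v | v ∈ S ∧ v.1 < c} := by
  obtain ⟨x0, x1, y0, y1, hS⟩ := h
  refine ⟨x0, min x1 c, y0, y1, fun v => ?_⟩
  rw [Set.mem_ofPred_eq, hS]
  constructor <;> intro h <;> omega

theorem IsRect.ge1 {S : Set (ℤ × ℤ)} (h : IsRect S) (c : ℤ) : IsRect {v | v ∈ S ∧ c ≤ v.1} := by
  obtain ⟨x0, x1, y0, y1, hS⟩ := h
  refine ⟨max x0 c, x1, y0, y1, fun v => ?_⟩
  rw [Set.mem_ofPred_eq, hS]
  constructor <;> intro h <;> omega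

theorem IsRect.lt2 {S : Set (ℤ × ℤ)} (h : IsRect S) (c : ℤ) : IsRect {v | v ∈ S ∧ v.2 < c} := by
  obtain ⟨x0, x1, y0, y1, hS⟩ := h
  refine ⟨x0, x1, y0, min y1 c, fun v => ?_⟩
  rw [Set.mem_ofPred_eq, hS]
  constructor <;> intro h <;> omega

theorem IsRect.ge2 {S : Set (ℤ × ℤ)} (h : IsRect S) (c : ℤ) : IsRect {v | v ∈ S ∧ c ≤ v.2} := by
  obtain ⟨x0, x1, y0, y1, hS⟩ := h
  refine ⟨x0, x1, max y0 c, y1, fun v => ?_⟩
  rw [Set.mem_ofPred_eq, hS]
  constructor <;> intro h <;> omega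

theorem IsRect.congr {S T : Set (ℤ × ℤ)} (h : IsRect S) (e : ∀ v, v ∈ T ↔ v ∈ S) : IsRect T := by
  obtain ⟨x0, x1, y0, y1, hS⟩ := h
  exact ⟨x0, x1, y0, y1, fun v => (e v).trans (hS v)⟩

theorem isRect_empty : IsRect (∅ : Set (ℤ × ℤ)) :=
  ⟨0, 0, 0, 0, fun v => by
    simp only [Set.mem_empty_iff_false, false_iff]
    omega⟩

/-- The part of a rectangle below a flat side. -/
theorem IsRect.out {S : Set (ℤ × ℤ)} (h : IsRect S) (i : Fin 4) (z : ℤ × ℤ) :
    IsRect {v | v ∈ S ∧ ¬ hpl i z v} := by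
  rcases fin4_cases i with rfl | rfl | rfl | rfl
  · exact (h.lt2 z.2).congr fun v => and_congr_right fun _ => not_le
  · exact (h.ge1 z.1).congr fun v => and_congr_right fun _ => not_lt
  · exact (h.ge2 z.2).congr fun v => and_congr_right fun _ => not_lt
  · exact (h.lt1 z.1).congr fun v => and_congr_right fun _ => not_le

theorem IsRect.lsd {S : Set (ℤ × ℤ)} (h : IsRect S) (i : Fin 4) (z : ℤ × ℤ) :
    IsRect {v | v ∈ S ∧ lsd i z v} := by
  rcases fin4_cases i with rfl | rfl | rfl | rfl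
  · exact h.lt1 z.1
  · exact h.lt2 z.2
  · exact h.lt1 z.1
  · exact h.lt2 z.2

theorem IsRect.nlsd {S : Set (ℤ × ℤ)} (h : IsRect S) (i : Fin 4) (z : ℤ × ℤ) :
    IsRect {v | v ∈ S ∧ ¬ H167.Q.lsd i z v} := by
  rcases fin4_cases i with rfl | rfl | rfl | rfl
  · exact (h.ge1 z.1).congr fun v => and_congr_right fun _ => not_lt
  · exact (h.ge2 z.2).congr fun v => and_congr_right fun _ => not_lt
  · exact (h.ge1 z.1).congr fun v => and_congr_right fun _ => not_lt
  · exact (h.ge2 z.2).congr fun v => and_congr_right fun _ => not_lt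

open Classical in
/-- The squares of one colour outside of a flat box. -/
theorem isRect_flat (x : ℤ × ℤ) (R : ℤ) (i : Fin 4) (z : ℤ × ℤ) (pl pr b : Bool) :
    IsRect {v | v ∈ bxx x R ∧ ¬ hpl i z v ∧ (if lsd i z v then pl else pr) = b} := by
  have hA : IsRect {v | v ∈ bxx x R ∧ ¬ hpl i z v} := (isRect_bxx x R).out i z
  by_cases h1 : pl = b
  · by_cases h2 : pr = b
    · refine hA.congr fun v => ?_
      simp only [Set.mem_ofPred_eq, h1, h2, ite_self, and_true]
    · refine (hA.lsd i z).congr fun v => ?_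
      simp only [Set.mem_ofPred_eq, h1, and_assoc]
      refine and_congr_right fun _ => and_congr_right fun _ => ?_
      by_cases h : lsd i z v
      · simp [h]
      · simp [h, h2]
  · by_cases h2 : pr = b
    · refine (hA.nlsd i z).congr fun v => ?_
      simp only [Set.mem_ofPred_eq, h2, and_assoc]
      refine and_congr_right fun _ => and_congr_right fun _ => ?_
      by_cases h : lsd i z v
      · simp [h, h1]
      · simp [h]
    · refine isRect_empty.congr fun v => ?_
      simp only [Set.mem_ofPred_eq, Set.mem_empty_iff_false, iff_false]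
      rintro ⟨-, -, h⟩
      split_ifs at h
      · exact h1 h
      · exact h2 h

variable {D : Finset (ℤ × ℤ)} {η : Cfg} {x z : ℤ × ℤ} {R : ℤ}

open Classical in
/-- **Flat boxes with at most one junction.** -/
theorem oneC_flat (i : Fin 4) (pl pr : Bool) (hdom : ∀ v ∈ bxx x R, (v ∈ D ↔ hpl i z v))
    (hout : ∀ v ∈ bxx x R, v ∉ D → η v = if lsd i z v then pl else pr) : OneC x R D η := by
  constructor
  · apply oneP_rect
    refine (isRect_flat x R i z pl pr true).congr fun v => ?_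
    simp only [Set.mem_ofPred_eq]
    constructor
    · rintro ⟨k1, k2, k3⟩
      exact ⟨k1, fun h => k2 ((hdom v k1).2 h), (hout v k1 k2).symm.trans k3⟩
    · rintro ⟨k1, k2, k3⟩
      have k4 : v ∉ D := fun h => k2 ((hdom v k1).1 h)
      exact ⟨k1, k4, (hout v k1 k4).trans k3⟩
  · apply oneP_rect
    refine (isRect_flat x R i z pl pr false).shift.congr fun v => ?_
    simp only [Set.mem_ofPred_eq]
    rw [FKA.mem_bxx_sh, mem_image_sh]
    have e1 : FK.du η v = true ↔ η (FKA.shi v) = false := by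
      show (!η (FKA.shi v)) = true ↔ _
      cases η (FKA.shi v) <;> simp
    rw [e1]
    constructor
    · rintro ⟨k1, k2, k3⟩
      exact ⟨k1, fun h => k2 ((hdom _ k1).2 h), (hout _ k1 k2).symm.trans k3⟩
    · rintro ⟨k1, k2, k3⟩
      have k4 : FKA.shi v ∉ D := fun h => k2 ((hdom _ k1).1 h)
      exact ⟨k1, k4, (hout _ k1 k4).trans k3⟩

theorem bxx_sub_Bq {y x : ℤ × ℤ} {a ρ : ℤ} (h : nm (y - x) + a < ρ) {v : ℤ × ℤ}
    (hv : v ∈ bxx y a) : v ∈ Bq x ρ := by
  rw [mem_bxx] at hv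
  apply Bq_of
  have := nm_tri v y x
  omega

/-- **The boxes inside of a flat box with at most one junction.** -/
theorem oneC_FlR {i : Fin 4} {pl pr : Bool} {y : ℤ × ℤ} {ρ : ℤ} (h : FlR i D η y ρ z pl pr)
    (hb : ∀ v ∈ bxx x R, v ∈ Bq y ρ) : OneC x R D η :=
  oneC_flat i pl pr (fun v hv => h.dom v (hb v hv)) fun v hv hvD => h.out v (hb v hv) hvD

end Vale.Agent.P167.Enl
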